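import Vale.Agent.Lib.P101.ZFinal
import Vale.Agent.Lib.P101.ZMax
import Vale.Agent.Lib.P101.JSimple

open Vale.Agent.Lib.P101

universe u

/-- Unconditional form of the answer to the Kirchberg-Rordam question.

First part: there is a C*-algebra `Z` with the properties of the Jiang-Su algebra recorded in
`IsJiangSu` (it is constructed in the proof as an inductive limit of prime dimension drop
algebras, and its simplicity, unique trace and half flip are proved).

Second part: let `A` be a separable unital C*-algebra, `ω` a free ultrafilter and `Z` a C*-algebra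
with `IsJiangSu Z`. If `F_ω(A)` has no characters, then `A ≅ A ⊗_max Z`, in the form of the
universal property `IsMaxTensor`. -/
theorem Vale.Agent.Results.P101.AbsorbsJiangSu.result :
    (∃ (Z : Type) (_ : CStarAlgebra Z), IsJiangSu Z) ∧
    ∀ {A Z : Type u} [CStarAlgebra A] [TopologicalSpace.SeparableSpace A] [CStarAlgebra Z]
      (ω : Ultrafilter ℕ), (ω : Filter ℕ) ≤ Filter.cofinite → IsJiangSu Z →
      IsEmpty (FOmega A ω →⋆ₐ[ℂ] ℂ) →
      ∃ (σ : A →⋆ₐ[ℂ] A) (φ : Z →⋆ₐ[ℂ] A), IsMaxTensor σ φ := by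
  refine ⟨⟨J.ZZ, inferInstance, J.ZZ_isJiangSu⟩, fun ω hω hZ hchar => ?_⟩
  obtain ⟨σ, φ, h1, h2⟩ := main_stable hω hZ hchar
  exact ⟨σ, φ, h1, h2⟩
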