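import Vale.Agent.Lib.P101.Ultra2

open Vale.Agent.Lib.P101

/-- If the central sequence algebra `F_ω(A)` of a separable unital C*-algebra `A` has no
characters, it contains a full square-zero element. -/
theorem Vale.Agent.Results.P101.FullSquareZero.result
    {A : Type*} [CStarAlgebra A] [TopologicalSpace.SeparableSpace A]
    (ω : Ultrafilter ℕ) (hω : (ω : Filter ℕ) ≤ Filter.cofinite)
    (hchar : IsEmpty (FOmega A ω →⋆ₐ[ℂ] ℂ)) :
    ∃ z : FOmega A ω, z * z = 0 ∧ (1 : FOmega A ω) ∈ TwoSidedIdeal.span {z} :=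
  FOmega_full_square_zero hω hchar
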