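import Vale.Agent.Lib.P101.ZFinal

open Vale.Agent.Lib.P101

universe u

/-- Let `A` be a separable unital C*-algebra, `ω` a free ultrafilter, and `Z` a C*-algebra with the
properties of the Jiang-Su algebra recorded in `IsJiangSu`. If `F_ω(A)` has no characters, then
there are commuting unital star-homomorphisms `σ : A → A` and `φ : Z → A` with the universal
property of the maximal tensor product: every commuting pair of unital star-homomorphisms from `A`
and `Z` to a unital C*-algebra `Y` factors uniquely through `(σ, φ)`. So `A ≅ A ⊗_max Z`. -/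
theorem Vale.Agent.Results.P101.JiangSuStable.result {A Z : Type u} [CStarAlgebra A]
    [TopologicalSpace.SeparableSpace A] [CStarAlgebra Z]
    (ω : Ultrafilter ℕ) (hω : (ω : Filter ℕ) ≤ Filter.cofinite) (hZ : IsJiangSu Z)
    (hchar : IsEmpty (FOmega A ω →⋆ₐ[ℂ] ℂ)) :
    ∃ (σ : A →⋆ₐ[ℂ] A) (φ : Z →⋆ₐ[ℂ] A), (∀ a z, σ a * φ z = φ z * σ a) ∧
      ∀ (Y : Type u) [CStarAlgebra Y] (α' : A →⋆ₐ[ℂ] Y) (β : Z →⋆ₐ[ℂ] Y),
        (∀ a z, α' a * β z = β z * α' a) →
        ∃! γ : A →⋆ₐ[ℂ] Y, γ.comp σ = α' ∧ γ.comp φ = β :=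
  main_stable hω hZ hchar
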