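import Vale.Agent.Lib.P101.Hom

open Vale.Agent.Lib.P101

/-- If the central sequence algebra `F_ω(A)` of a separable unital C*-algebra `A` has no
characters, there is a unital star-homomorphism from the dimension-drop algebra
`Z_{2,3} = {f ∈ C([0,1], M_2 ⊗ M_3) : f(0) ∈ M_2 ⊗ 1, f(1) ∈ 1 ⊗ M_3}` into `F_ω(A)`. -/
theorem Vale.Agent.Results.P101.Z23Hom.result
    {A : Type*} [CStarAlgebra A] [TopologicalSpace.SeparableSpace A]
    (ω : Ultrafilter ℕ) (hω : (ω : Filter ℕ) ≤ Filter.cofinite)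
    (hchar : IsEmpty (FOmega A ω →⋆ₐ[ℂ] ℂ)) :
    Nonempty (Z23 →⋆ₐ[ℂ] FOmega A ω) :=
  FOmega_hom hω hchar
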