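import Vale.Agent.Lib.P101.Copy2

open Vale.Agent.Lib.P101

/-- If the central sequence algebra `F_ω(A)` of a separable unital C*-algebra `A` has no
characters, it contains `y, v` with `y² = 0`, `‖y‖ ≤ 1`, `v^* v = 1 - √(y y^*) - √(y^* y)` and
`√(y y^*) v = v`: an order-zero contraction `M_2 → F_ω(A)` and the Rørdam-Winter partial
isometry, that is, the relations of the dimension-drop algebra `Z_{2,3}`. -/
theorem Vale.Agent.Results.P101.Z23Relation.result
    {A : Type*} [CStarAlgebra A] [TopologicalSpace.SeparableSpace A]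
    (ω : Ultrafilter ℕ) (hω : (ω : Filter ℕ) ≤ Filter.cofinite)
    (hchar : IsEmpty (FOmega A ω →⋆ₐ[ℂ] ℂ)) :
    ∃ y v : FOmega A ω, Z23Rel y v :=
  FOmega_z23 hω hchar
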